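import Mathlib.Analysis.SpecialFunctions.Gaussian.PoissonSummation
import Mathlib.NumberTheory.ModularForms.JacobiTheta.Bounds
import Mathlib.Algebra.Order.Archimedean.Basic

/-!
# P022, stage 3 (helper455): the fundamental domain of the unit, and sums over it
-/

open Set Filter

noncomputable section

namespace Vale.Agent.P022.H455

section dom
variable {V : Type*} {A : Equiv.Perm V} {x1 x2 : V → ℝ} {η : ℝ}

theorem x_zpow (hη : η ≠ 0) (h1 : ∀ v, x1 (A v) = η * x1 v) (n : ℤ) (v : V) :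
    x1 ((A ^ n) v) = η ^ n * x1 v := by
  induction n using Int.induction_on with
  | zero => simp
  | succ n ih =>
    rw [add_comm (n : ℤ) 1, zpow_one_add, Equiv.Perm.mul_apply, h1, ih, zpow_one_add₀ hη]
    ring
  | pred n ih =>
    have h2 : (A ^ (-(n : ℤ))) v = A ((A ^ (-(n : ℤ) - 1)) v) := by
      rw [← Equiv.Perm.mul_apply]
      congr 1
      rw [← zpow_one_add]
      congr 1
      ring
    rw [h2, h1] at ih
    rw [zpow_sub_one₀ hη]
    field_simp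
    linear_combination ih

/-- **The fundamental domain.** -/
theorem dom (hη : 1 < η) (h1 : ∀ v, x1 (A v) = η * x1 v) (h2 : ∀ v, x2 (A v) = η⁻¹ * x2 v)
    {v : V} (hv1 : x1 v ≠ 0) (hv2 : x2 v ≠ 0) :
    ∃! n : ℤ, |x2 ((A ^ n) v)| ≤ |x1 ((A ^ n) v)| ∧ |x1 ((A ^ n) v)| < η ^ 2 * |x2 ((A ^ n) v)| := by
  have h0 : 0 < η := by linarith
  have hy : 1 < η ^ 2 := by nlinarith
  have ha1 : 0 < |x1 v| := abs_pos.2 hv1
  have ha2 : 0 < |x2 v| := abs_pos.2 hv2
  have key : ∀ n : ℤ, (|x2 ((A ^ n) v)| ≤ |x1 ((A ^ n) v)| ∧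
      |x1 ((A ^ n) v)| < η ^ 2 * |x2 ((A ^ n) v)|) ↔
      |x1 v| / |x2 v| ∈ Ico ((η ^ 2) ^ (-n)) ((η ^ 2) ^ (-n + 1)) := by
    intro n
    have e1 : |x1 ((A ^ n) v)| = η ^ n * |x1 v| := by
      rw [x_zpow h0.ne' h1, abs_mul, abs_of_pos (zpow_pos h0 n)]
    have e2 : |x2 ((A ^ n) v)| = (η ^ n)⁻¹ * |x2 v| := by
      rw [x_zpow (inv_ne_zero h0.ne') h2, abs_mul, inv_zpow, abs_of_pos (inv_pos.2 (zpow_pos h0 n))]
    have hp : 0 < η ^ n := zpow_pos h0 n
    have e3 : (η ^ 2) ^ (-n) = ((η ^ n) ^ 2)⁻¹ := by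
      rw [zpow_neg, ← zpow_natCast (η ^ n) 2, ← zpow_natCast η 2, ← zpow_mul, ← zpow_mul, mul_comm]
    rw [mem_Ico, e1, e2, zpow_add_one₀ (by positivity), e3, le_div_iff₀ ha2, div_lt_iff₀ ha2]
    have hq : 0 < (η ^ n) ^ 2 := by positivity
    constructor
    · rintro ⟨u1, u2⟩
      constructor
      · have := mul_le_mul_of_nonneg_left u1 (inv_pos.2 hp).le
        have e4 : (η ^ n)⁻¹ * (η ^ n * |x1 v|) = |x1 v| := by field_simp
        rw [e4] at this
        refine le_trans (le_of_eq ?_) this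
        field_simp
      · have := mul_lt_mul_of_pos_left u2 (inv_pos.2 hp)
        have e4 : (η ^ n)⁻¹ * (η ^ n * |x1 v|) = |x1 v| := by field_simp
        rw [e4] at this
        refine lt_of_lt_of_le this (le_of_eq ?_)
        field_simp
    · rintro ⟨u1, u2⟩
      constructor
      · have := mul_le_mul_of_nonneg_left u1 hp.le
        refine le_trans (le_of_eq ?_) this
        field_simp
      · have := mul_lt_mul_of_pos_left u2 hp
        refine lt_of_lt_of_le this (le_of_eq ?_)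
        field_simp
  obtain ⟨m, hm⟩ := exists_mem_Ico_zpow (div_pos ha1 ha2) hy
  refine ⟨-m, (key _).2 (by simpa using hm), fun n hn => ?_⟩
  have hn' := (key n).1 hn
  have hm' := hm
  have l1 : (η ^ 2) ^ (-n) < (η ^ 2) ^ (m + 1) := lt_of_le_of_lt hn'.1 hm'.2
  have l2 : (η ^ 2) ^ m < (η ^ 2) ^ (-n + 1) := lt_of_le_of_lt hm'.1 hn'.2
  rw [zpow_lt_zpow_iff_right₀ hy] at l1 l2
  omega

end dom

/-- Gaussian sums over `ℤ²` converge. -/
theorem summable_gauss {c : ℝ} (hc : 0 < c) :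
    Summable fun v : ℤ × ℤ => Real.exp (-(c * ((v.1 : ℝ) ^ 2 + (v.2 : ℝ) ^ 2))) := by
  have h1 : Summable fun n : ℤ => Real.exp (-(c * (n : ℝ) ^ 2)) := by
    have h := HurwitzKernelBounds.summable_f_int 0 0 (t := c / Real.pi) (div_pos hc Real.pi_pos)
    refine h.congr fun n => ?_
    simp only [HurwitzKernelBounds.f_int, pow_zero, one_mul, add_zero]
    congr 1
    have hpi : Real.pi ≠ 0 := Real.pi_ne_zero
    field_simp
  have h2 := h1.mul_of_nonneg h1 (fun n => (Real.exp_pos _).le) (fun n => (Real.exp_pos _).le)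
  refine h2.congr fun v => ?_
  rw [← Real.exp_add]
  congr 1
  ring

/-- `x^j exp(-2πyx) ≤ K exp(-πyx)`. -/
theorem pow_exp_le (j : ℕ) {y : ℝ} (hy : 0 < y) :
    ∃ K : ℝ, 0 < K ∧ ∀ x : ℝ, 0 ≤ x → x ^ j * Real.exp (-(2 * Real.pi * y * x)) ≤
      K * Real.exp (-(Real.pi * y * x)) := by
  have hp : 0 < Real.pi * y := mul_pos Real.pi_pos hy
  refine ⟨j.factorial / (Real.pi * y) ^ j, by positivity, fun x hx => ?_⟩
  have h1 : (Real.pi * y * x) ^ j / j.factorial ≤ Real.exp (Real.pi * y * x) :=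
    Real.pow_div_factorial_le_exp _ (by positivity) j
  have h2 : Real.exp (-(2 * Real.pi * y * x)) =
      Real.exp (-(Real.pi * y * x)) * Real.exp (-(Real.pi * y * x)) := by
    rw [← Real.exp_add]
    congr 1
    ring
  have h3 : x ^ j * Real.exp (-(Real.pi * y * x)) ≤ j.factorial / (Real.pi * y) ^ j := by
    rw [Real.exp_neg, ← div_eq_mul_inv, div_le_div_iff₀ (Real.exp_pos _) (by positivity)]
    rw [div_le_iff₀ (by positivity), mul_pow] at h1
    linarith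
  rw [h2, ← mul_assoc]
  exact mul_le_mul_of_nonneg_right h3 (Real.exp_pos _).le

/-- **Summability over a cone.** -/
theorem sumQ {S : Set (ℤ × ℤ)} {q : ℤ × ℤ → ℝ} {C : ℝ} (hC : 0 < C)
    (h : ∀ v ∈ S, ((v.1 : ℝ) ^ 2 + (v.2 : ℝ) ^ 2) ≤ C * q v) (j : ℕ) {y : ℝ} (hy : 0 < y) :
    Summable fun v : S => q v ^ j * Real.exp (-(2 * Real.pi * y * q v)) := by
  obtain ⟨K, hK, hKx⟩ := pow_exp_le j hy
  have hq : ∀ v ∈ S, 0 ≤ q v := by
    intro v hv
    have h1 := h v hv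
    have h2 : 0 ≤ C * q v := le_trans (by positivity) h1
    exact nonneg_of_mul_nonneg_right h2 hC
  have h1 := ((summable_gauss (c := Real.pi * y / C) (by positivity)).mul_left K).subtype S
  refine h1.of_nonneg_of_le (fun v => mul_nonneg (pow_nonneg (hq v v.2) _) (Real.exp_pos _).le) ?_
  intro v
  refine le_trans (hKx _ (hq v v.2)) ?_
  simp only [Function.comp]
  refine mul_le_mul_of_nonneg_left (Real.exp_le_exp.2 ?_) hK.le
  have h2 := h v v.2
  have h3 : Real.pi * y / C * (((v : ℤ × ℤ).1 : ℝ) ^ 2 + ((v : ℤ × ℤ).2 : ℝ) ^ 2) ≤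
      Real.pi * y / C * (C * q v) := mul_le_mul_of_nonneg_left h2 (by positivity)
  have h4 : Real.pi * y / C * (C * q v) = Real.pi * y * q v := by field_simp
  linarith

/-- The cone bound for `x1 = a X + (b + s) / 2 Y`, `x2 = a X + (b - s) / 2 Y`. -/
theorem cone_le {a b s η : ℝ} (ha : 0 < a) (hs : 0 < s) (hη : 1 < η) : ∃ C : ℝ, 0 < C ∧
    ∀ X Y : ℝ, |a * X + (b - s) / 2 * Y| ≤ |a * X + (b + s) / 2 * Y| →
      |a * X + (b + s) / 2 * Y| < η ^ 2 * |a * X + (b - s) / 2 * Y| →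
      X ^ 2 + Y ^ 2 ≤ C * |(a * X + (b + s) / 2 * Y) * (a * X + (b - s) / 2 * Y)| := by
  refine ⟨(2 * (1 + η ^ 2)) / s ^ 2 + (4 * (1 + η ^ 2) + 2 * b ^ 2 * ((2 * (1 + η ^ 2)) / s ^ 2)) /
    (4 * a ^ 2), by positivity, fun X Y h1 h2 => ?_⟩
  set u := a * X + (b + s) / 2 * Y with hu
  set w := a * X + (b - s) / 2 * Y with hw
  have hP : 0 ≤ |u * w| := abs_nonneg _
  have g1 : w ^ 2 ≤ |u * w| := by
    rw [abs_mul, ← sq_abs w, sq]
    exact mul_le_mul_of_nonneg_right h1 (abs_nonneg _)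
  have g2 : u ^ 2 ≤ η ^ 2 * |u * w| := by
    rw [abs_mul, ← sq_abs u, sq]
    nlinarith [abs_nonneg u, abs_nonneg w, h2]
  have g3 : u ^ 2 + w ^ 2 ≤ (1 + η ^ 2) * |u * w| := by linarith
  have e1 : s * Y = u - w := by rw [hu, hw]; ring
  have e2 : 2 * a * X = u + w - b * Y := by rw [hu, hw]; ring
  have g4 : Y ^ 2 ≤ (2 * (1 + η ^ 2)) / s ^ 2 * |u * w| := by
    rw [div_mul_eq_mul_div, le_div_iff₀ (by positivity)]
    have : Y ^ 2 * s ^ 2 = (u - w) ^ 2 := by rw [← e1]; ring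
    rw [this]
    nlinarith [sq_nonneg (u + w)]
  have g5 : X ^ 2 ≤ (4 * (1 + η ^ 2) + 2 * b ^ 2 * ((2 * (1 + η ^ 2)) / s ^ 2)) /
      (4 * a ^ 2) * |u * w| := by
    rw [div_mul_eq_mul_div, le_div_iff₀ (by positivity)]
    have : X ^ 2 * (4 * a ^ 2) = (u + w - b * Y) ^ 2 := by rw [← e2]; ring
    rw [this]
    have g6 : (u + w - b * Y) ^ 2 ≤ 4 * (u ^ 2 + w ^ 2) + 2 * b ^ 2 * Y ^ 2 := by
      nlinarith [sq_nonneg (u + w + b * Y), sq_nonneg (u - w)]
    have g7 : 2 * b ^ 2 * Y ^ 2 ≤ 2 * b ^ 2 * ((2 * (1 + η ^ 2)) / s ^ 2 * |u * w|) :=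
      mul_le_mul_of_nonneg_left g4 (by positivity)
    nlinarith
  calc X ^ 2 + Y ^ 2 ≤ _ := add_le_add g5 g4
    _ = _ := by ring

end Vale.Agent.P022.H455
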