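import Mathlib.MeasureTheory.Integral.IntervalIntegral.Basic
import Mathlib.MeasureTheory.Integral.DominatedConvergence
import Mathlib.MeasureTheory.Measure.Lebesgue.Basic
import Mathlib.Algebra.Order.ToIntervalMod
import Mathlib.MeasureTheory.Measure.Haar.OfBasis
import Mathlib.MeasureTheory.Group.Integral

/-!
# P022, stage 3 (helper455): unfolding of a period integral

`A` acts on `X`, `g (A x) t = g x (t + L)`, `D` is a fundamental domain of `A` on the invariant
set `Z`, and `g x = 0` off `Z`. Then `∫_0^L ∑_X g x = ∑_{D ∩ Z} ∫_ℝ g x`.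
-/

open Set MeasureTheory Filter

noncomputable section

namespace Vale.Agent.P022.H455

variable {X : Type*} {A : Equiv.Perm X} {L : ℝ} {g : X → ℝ → ℂ}

theorem g_zpow (hg : ∀ x t, g (A x) t = g x (t + L)) (n : ℤ) (x : X) (t : ℝ) :
    g ((A ^ n) x) t = g x (t + n * L) := by
  induction n using Int.induction_on generalizing t with
  | zero => simp
  | succ n ih =>
    rw [add_comm (n : ℤ) 1, zpow_one_add, Equiv.Perm.mul_apply, hg, ih]
    congr 1
    push_cast
    ring
  | pred n ih =>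
    have h1 : (A ^ (-(n : ℤ) - 1)) x = A⁻¹ ((A ^ (-(n : ℤ))) x) := by
      rw [← Equiv.Perm.mul_apply]
      congr 1
      rw [sub_eq_add_neg, add_comm, zpow_add, zpow_neg_one]
    have h2 := hg (A⁻¹ ((A ^ (-(n : ℤ))) x)) (t - L)
    have h3 : A (A⁻¹ ((A ^ (-(n : ℤ))) x)) = (A ^ (-(n : ℤ))) x := by simp
    rw [h3, sub_add_cancel] at h2
    rw [h1, ← h2, ih]
    congr 1
    push_cast
    ring

/-- An integral over `ℝ` is the sum of the integrals over the translates of a period. -/
theorem hasSum_period {E : Type*} [NormedAddCommGroup E] [NormedSpace ℝ E] (hL : 0 < L)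
    {f : ℝ → E} (hf : Integrable f) :
    HasSum (fun n : ℤ => ∫ t in Ioc 0 L, f (t + n * L)) (∫ t, f t) := by
  have h1 := hasSum_integral_iUnion (μ := volume) (f := f)
    (s := fun n : ℤ => Ioc ((0 : ℝ) + n • L) (0 + (n + 1) • L))
    (fun n => measurableSet_Ioc) (pairwise_disjoint_Ioc_add_zsmul 0 L)
    (by rw [iUnion_Ioc_add_zsmul hL]; exact hf.integrableOn)
  rw [iUnion_Ioc_add_zsmul hL, setIntegral_univ] at h1
  convert h1 using 1
  funext n
  have h2 : (0 : ℝ) + n • L ≤ 0 + (n + 1) • L := by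
    rw [add_smul, one_smul]
    linarith
  rw [← intervalIntegral.integral_of_le hL.le, ← intervalIntegral.integral_of_le h2,
    intervalIntegral.integral_comp_add_right (fun t => f t)]
  congr 1
  · simp
  · simp [add_smul, add_comm]

variable {D Z : Set X}

/-- The orbit map from the fundamental domain. -/
def orb (hA : ∀ x, x ∈ Z ↔ A x ∈ Z) : (D ∩ Z : Set X) × ℤ → Z := fun p =>
  ⟨(A ^ p.2) p.1, by
    have h : ∀ n : ℤ, ∀ x, x ∈ Z ↔ (A ^ n) x ∈ Z := by
      intro n
      induction n using Int.induction_on with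
      | zero => simp
      | succ n ih =>
        intro x
        rw [add_comm (n : ℤ) 1, zpow_one_add, Equiv.Perm.mul_apply, ← hA, ← ih]
      | pred n ih =>
        intro x
        have h1 : (A ^ (-(n : ℤ))) x = A ((A ^ (-(n : ℤ) - 1)) x) := by
          rw [← Equiv.Perm.mul_apply]
          congr 1
          rw [← zpow_one_add]
          congr 1
          ring
        rw [ih, h1, ← hA]
    exact (h p.2 p.1).1 p.1.2.2⟩

theorem zpow_zpow (n m : ℤ) (x : X) : (A ^ n) ((A ^ m) x) = (A ^ (n + m)) x := by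
  rw [zpow_add, Equiv.Perm.mul_apply]

theorem orb_bij (hA : ∀ x, x ∈ Z ↔ A x ∈ Z) (hD : ∀ x ∈ Z, ∃! n : ℤ, (A ^ n) x ∈ D) :
    Function.Bijective (orb (D := D) hA) := by
  constructor
  · rintro ⟨⟨x, hx⟩, n⟩ ⟨⟨y, hy⟩, m⟩ h
    have h1 : (A ^ n) x = (A ^ m) y := congrArg Subtype.val h
    have h2 : x = (A ^ (m - n)) y := by
      have := congrArg (A ^ (-n)) h1
      rw [zpow_zpow, zpow_zpow] at this
      simpa [sub_eq_neg_add] using this
    have h3 : (A ^ (m - n)) y ∈ D := h2 ▸ hx.1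
    have h4 : (A ^ (0 : ℤ)) y ∈ D := by simpa using hy.1
    have h5 := (hD y hy.2).unique h3 h4
    have h6 : n = m := by omega
    subst h6
    simp at h2
    subst h2
    rfl
  · rintro ⟨x, hx⟩
    obtain ⟨n, hn, -⟩ := hD x hx
    have h0 : (A ^ n) x ∈ Z := by
      have := (orb (A := A) (D := univ) (Z := Z) hA (⟨x, mem_univ _, hx⟩, n)).2
      exact this
    refine ⟨(⟨(A ^ n) x, hn, h0⟩, -n), ?_⟩
    apply Subtype.ext
    change (A ^ (-n)) ((A ^ n) x) = x
    rw [zpow_zpow]
    simp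

/-- **Unfolding.** -/
theorem swap [Countable X] (hL : 0 < L) (hA : ∀ x, x ∈ Z ↔ A x ∈ Z)
    (hD : ∀ x ∈ Z, ∃! n : ℤ, (A ^ n) x ∈ D) (hg : ∀ x t, g (A x) t = g x (t + L))
    (h0 : ∀ x, x ∉ Z → ∀ t, g x t = 0) (hi : ∀ x ∈ D ∩ Z, Integrable (g x))
    (hs : Summable fun x : (D ∩ Z : Set X) => ∫ t, ‖g x t‖) :
    (Summable fun x : X => ∫ t in Ioc 0 L, ‖g x t‖) ∧
    (∀ x, IntegrableOn (g x) (Ioc 0 L)) ∧
    HasSum (fun x : (D ∩ Z : Set X) => ∫ t, g x t) (∫ t in (0)..L, ∑' x, g x t) := by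
  set e := Equiv.ofBijective _ (orb_bij (D := D) hA hD) with he
  have hev : ∀ p : (D ∩ Z : Set X) × ℤ, ((e p : Z) : X) = (A ^ p.2) p.1 := fun p => rfl
  have hper : ∀ p : (D ∩ Z : Set X) × ℤ, ∀ t, g (e p) t = g p.1 (t + p.2 * L) := by
    intro p t
    rw [hev, g_zpow hg]
  -- the integrals over one period
  have hint : ∀ z : Z, IntegrableOn (g z) (Ioc 0 L) := by
    intro z
    obtain ⟨p, rfl⟩ := e.surjective z
    have h1 : Integrable (fun t => g p.1 (t + p.2 * L)) := (hi p.1 p.1.2).comp_add_right _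
    have h2 : g (e p) = fun t => g p.1 (t + p.2 * L) := funext (hper p)
    rw [h2]
    exact h1.integrableOn
  have hn1 : ∀ x : (D ∩ Z : Set X), HasSum (fun n : ℤ => ∫ t in Ioc 0 L, ‖g (e (x, n)) t‖)
      (∫ t, ‖g x t‖) := by
    intro x
    have := hasSum_period hL (hi x x.2).norm
    simpa only [hper] using this
  have hv1 : ∀ x : (D ∩ Z : Set X), HasSum (fun n : ℤ => ∫ t in Ioc 0 L, g (e (x, n)) t)
      (∫ t, g x t) := by
    intro x
    have := hasSum_period hL (hi x x.2)
    simpa only [hper] using this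
  have hsp : Summable (fun p : (D ∩ Z : Set X) × ℤ => ∫ t in Ioc 0 L, ‖g (e p) t‖) := by
    rw [summable_prod_of_nonneg (fun p => integral_nonneg fun t => norm_nonneg _)]
    refine ⟨fun x => (hn1 x).summable, ?_⟩
    simpa only [fun x => (hn1 x).tsum_eq] using hs
  have hsz : Summable (fun z : Z => ∫ t in Ioc 0 L, ‖g z t‖) := by
    rw [← e.summable_iff]
    exact hsp
  have hsz' : HasSum (fun z : Z => ∫ t in Ioc 0 L, g z t) (∫ t in Ioc 0 L, ∑' z : Z, g z t) :=
    hasSum_integral_of_summable_integral_norm hint hsz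
  have h3 : (fun t => ∑' z : Z, g z t) = fun t => ∑' x, g x t := by
    funext t
    have : Function.support (fun x => g x t) ⊆ Z := by
      intro x hx
      by_contra h
      exact hx (h0 x h t)
    exact tsum_subtype_eq_of_support_subset this
  refine ⟨?_, ?_, ?_⟩
  · have : Function.support (fun x => ∫ t in Ioc 0 L, ‖g x t‖) ⊆ Z := by
      intro x hx
      by_contra h
      refine hx ?_
      simp [h0 x h]
    have h5 : Summable ((fun x => ∫ t in Ioc 0 L, ‖g x t‖) ∘ ((↑) : Z → X)) := hsz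
    rwa [summable_subtype_iff_indicator, Set.indicator_eq_self.2 this] at h5
  · intro x
    by_cases hx : x ∈ Z
    · exact hint ⟨x, hx⟩
    · have : g x = fun _ => 0 := funext (h0 x hx)
      rw [this]
      exact integrableOn_zero
  · rw [intervalIntegral.integral_of_le hL.le, ← h3]
    have h4 := (e.hasSum_iff.2 hsz')
    exact h4.prod_fiberwise hv1

end Vale.Agent.P022.H455
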